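import Vale.Agent.P015.H895.PrimeCount
import Vale.Agent.P015.H416.SpecEnt

/-! LEVELS: the specification `Spec_LEVP`. -/

namespace Vale.Agent.P015.H895

open Finset Vale.Agent.P015 Vale.Agent.P015.H416

theorem levp : Spec_LEVP := by
  obtain ⟨N, hN2, hN⟩ := lev_bounds (ε := 1 / 4) (by norm_num)
  refine ⟨2, fun A hA m hm => ?_⟩
  have hA1 : (1 : ℝ) < A := by exact_mod_cast (by omega : 1 < A)
  have hlogA : 0 < Real.log A := Real.log_pos hA1
  have hm0 : (0 : ℝ) < m := by exact_mod_cast hm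
  refine ⟨1 / (4 * m * Real.log A), max N 1, by positivity, fun k hk n hn => ?_⟩
  have hkN : N ≤ k := (le_max_left _ _).trans hk
  have hk1 : 1 ≤ k := (le_max_right _ _).trans hk
  have hk0 : (0 : ℝ) < k := by exact_mod_cast hk1
  have hAk : k < A ^ k := Nat.lt_pow_self (by omega)
  obtain ⟨-, h1, -⟩ := hN (A ^ k) (by omega)
  have hlog : Real.log ((A ^ k : ℕ) : ℝ) = k * Real.log A := by
    push_cast
    rw [Real.log_pow]
  rw [hlog] at h1
  push_cast at h1
  have hcard : m * n ≤ (lev (A ^ k)).card := by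
    have h2 : ((m * n : ℕ) : ℝ) * (k * Real.log A) ≤ ((lev (A ^ k)).card : ℝ) * (k * Real.log A) := by
      refine le_trans ?_ h1
      push_cast
      calc (m : ℝ) * n * (k * Real.log A) = (m * Real.log A) * (n * k) := by ring
        _ ≤ (m * Real.log A) * (1 / (4 * m * Real.log A) * (A : ℝ) ^ k) :=
          mul_le_mul_of_nonneg_left hn (by positivity)
        _ = (1 / 2 - 1 / 4) * (A : ℝ) ^ k := by field_simp; norm_num
    have h3 := le_of_mul_le_mul_right h2 (by positivity)
    exact_mod_cast h3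
  obtain ⟨L, hL1, hL2, hL3⟩ := exists_parts n m (lev (A ^ k)) hcard
  refine ⟨L, hL3, hL2, fun b p hp => ?_⟩
  have h4 := mem_lev.1 (hL1 b hp)
  refine ⟨h4.2.1, h4.2.2, h4.1.1, h4.1.2.trans ?_⟩
  rw [pow_succ, mul_comm]
  exact Nat.mul_le_mul_left _ hA

end Vale.Agent.P015.H895
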