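import Vale.Agent.P015.Cx.Mertens

/-! Prime levels: primes `1 mod 4` in `(Q, 2 Q]`. -/

namespace Vale.Agent.P015.H895

open Finset Vale.Agent.P015 Vale.Agent.P015.Cx Filter Topology

/-- the level `Q`: primes `1 mod 4` in `(Q, 2 Q]` -/
def lev (Q : ℕ) : Finset ℕ := primesMod Q (2 * Q)

theorem mem_lev {Q p : ℕ} : p ∈ lev Q ↔ (Q < p ∧ p ≤ 2 * Q) ∧ p.Prime ∧ p % 4 = 1 := mem_primesMod

/-- `θ(2Q) - θ(Q)` -/
theorem sum_log_lev (Q : ℕ) : ∑ p ∈ lev Q, Real.log p = th (2 * Q) - th Q := by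
  unfold th lev
  rw [sum_primesMod_add (Nat.zero_le Q) (show Q ≤ 2 * Q by omega)]
  ring

theorem th_tendsto : Tendsto (fun n : ℕ => th n / n) atTop (𝓝 (1 / 2)) := by
  have h := Vale.Agent.PNT.thetaAP_div_tendsto (q := 4) (a := (1 : ZMod 4)) isUnit_one
  have htot : (Nat.totient 4 : ℝ) = 2 := by
    have : Nat.totient 4 = 2 := by decide
    rw [this]; norm_num
  rw [htot] at h
  have hn : Tendsto (fun n : ℕ => (n : ℝ)) atTop atTop := tendsto_natCast_atTop_atTop
  have h2 := h.comp hn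
  have e : (fun n : ℕ => th n / n) =
      (fun x : ℝ => Vale.Agent.PNT.thetaAP (1 : ZMod 4) x / x) ∘ (fun n : ℕ => (n : ℝ)) := by
    funext n
    simp only [Function.comp, th_eq]
  rw [e, one_div]
  exact h2

/-- asymptotic mass of a level -/
theorem sum_log_lev_bounds {ε : ℝ} (hε : 0 < ε) : ∃ N : ℕ, 1 ≤ N ∧ ∀ Q : ℕ, N ≤ Q →
    (1 / 2 - ε) * Q ≤ ∑ p ∈ lev Q, Real.log p ∧ ∑ p ∈ lev Q, Real.log p ≤ (1 / 2 + ε) * Q := by
  have h := th_tendsto
  rw [Metric.tendsto_atTop] at h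
  obtain ⟨N, hN⟩ := h (ε / 3) (by positivity)
  refine ⟨max N 1, le_max_right _ _, fun Q hQ => ?_⟩
  have hQ1 : 1 ≤ Q := (le_max_right _ _).trans hQ
  have hQN : N ≤ Q := (le_max_left _ _).trans hQ
  have hQ0 : (0 : ℝ) < Q := by exact_mod_cast hQ1
  have h1 := hN Q hQN
  have h2 := hN (2 * Q) (by omega)
  rw [Real.dist_eq, abs_lt] at h1 h2
  have hQ2 : (0 : ℝ) < ((2 * Q : ℕ) : ℝ) := by push_cast; positivity
  have e1 : th Q = th Q / Q * Q := by field_simp
  have e2 : th (2 * Q) = th (2 * Q) / ((2 * Q : ℕ) : ℝ) * ((2 * Q : ℕ) : ℝ) := by field_simp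
  rw [sum_log_lev, e1, e2]
  set a := th Q / (Q : ℝ)
  set b := th (2 * Q) / ((2 * Q : ℕ) : ℝ)
  push_cast
  constructor <;> nlinarith [h1.1, h1.2, h2.1, h2.2]

/-- **Prime levels**: `card * log Q` and `∑ log p` are both `Q / 2` up to a factor `1 ± ε`. -/
theorem lev_bounds {ε : ℝ} (hε : 0 < ε) : ∃ N : ℕ, 2 ≤ N ∧ ∀ Q : ℕ, N ≤ Q →
    ((1 / 2 - ε) * Q ≤ ∑ p ∈ lev Q, Real.log p ∧ ∑ p ∈ lev Q, Real.log p ≤ (1 / 2 + ε) * Q) ∧
    ((1 / 2 - ε) * Q ≤ (lev Q).card * Real.log Q ∧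
      (lev Q).card * Real.log Q ≤ (1 / 2 + ε) * Q) := by
  obtain ⟨N1, hN1, h1⟩ := sum_log_lev_bounds (half_pos hε)
  have hlog : Tendsto (fun n : ℕ => Real.log (n : ℝ)) atTop atTop :=
    Real.tendsto_log_atTop.comp tendsto_natCast_atTop_atTop
  obtain ⟨N2, hN2⟩ := Filter.eventually_atTop.1 (hlog.eventually (eventually_ge_atTop
    (max 1 ((1 / 2 + ε) * Real.log 2 / (ε / 2)))))
  refine ⟨max (max N1 N2) 2, le_max_right _ _, fun Q hQ => ?_⟩
  have hQ2 : 2 ≤ Q := (le_max_right _ _).trans hQ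
  have hQ0 : (0 : ℝ) < Q := by exact_mod_cast (by omega : 0 < Q)
  obtain ⟨h3, h4⟩ := h1 Q (((le_max_left _ _).trans (le_max_left _ _)).trans hQ)
  have h5 := hN2 Q (((le_max_right _ _).trans (le_max_left _ _)).trans hQ)
  have h6 : 1 ≤ Real.log Q := (le_max_left _ _).trans h5
  have h7 : (1 / 2 + ε) * Real.log 2 / (ε / 2) ≤ Real.log Q := (le_max_right _ _).trans h5
  rw [div_le_iff₀ (by positivity)] at h7
  have hl2 : 0 < Real.log 2 := Real.log_pos (by norm_num)
  have hlow : ∀ p ∈ lev Q, Real.log Q ≤ Real.log p := by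
    intro p hp
    exact Real.log_le_log hQ0 (by exact_mod_cast (mem_lev.1 hp).1.1.le)
  have hup : ∀ p ∈ lev Q, Real.log p ≤ Real.log 2 + Real.log Q := by
    intro p hp
    rw [← Real.log_mul (by norm_num) hQ0.ne']
    have hp1 := (mem_lev.1 hp)
    exact Real.log_le_log (by exact_mod_cast hp1.2.1.pos) (by exact_mod_cast hp1.1.2)
  have h8 : (lev Q).card * Real.log Q ≤ ∑ p ∈ lev Q, Real.log p := by
    rw [← nsmul_eq_mul]
    exact Finset.card_nsmul_le_sum _ _ _ hlow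
  have h9 : ∑ p ∈ lev Q, Real.log p ≤ (lev Q).card * (Real.log 2 + Real.log Q) := by
    rw [← nsmul_eq_mul]
    exact Finset.sum_le_card_nsmul _ _ _ hup
  have hc0 : (0 : ℝ) ≤ (lev Q).card := Nat.cast_nonneg _
  refine ⟨⟨by nlinarith, by nlinarith⟩, ?_, by nlinarith⟩
  -- card ≤ (1/2+ε) Q / log Q, so card * log 2 ≤ (ε/2) Q
  have h10 : (lev Q).card * Real.log 2 ≤ ε / 2 * Q := by
    have h11 : (lev Q).card * Real.log Q ≤ (1 / 2 + ε) * Q := by nlinarith
    have h12 : ((lev Q).card * Real.log 2) * Real.log Q ≤ (ε / 2 * Q) * Real.log Q := by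
      calc ((lev Q).card * Real.log 2) * Real.log Q
          = ((lev Q).card * Real.log Q) * Real.log 2 := by ring
        _ ≤ ((1 / 2 + ε) * Q) * Real.log 2 := mul_le_mul_of_nonneg_right h11 hl2.le
        _ = ((1 / 2 + ε) * Real.log 2) * Q := by ring
        _ ≤ (Real.log Q * (ε / 2)) * Q := mul_le_mul_of_nonneg_right h7 hQ0.le
        _ = _ := by ring
    exact le_of_mul_le_mul_right h12 (by linarith)
  nlinarith

/-- a finset of `2 ^ d * n` elements splits into `2 ^ d` pairwise disjoint parts of `n` elements -/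
theorem exists_parts (n : ℕ) : ∀ (m : ℕ) (S : Finset ℕ), m * n ≤ S.card →
    ∃ L : Fin m → Finset ℕ, (∀ i, L i ⊆ S) ∧ (∀ i, (L i).card = n) ∧
      (∀ i j, i ≠ j → Disjoint (L i) (L j)) := by
  intro m
  induction m with
  | zero => intro S _; exact ⟨fun _ => ∅, fun i => i.elim0, fun i => i.elim0, fun i => i.elim0⟩
  | succ m ih =>
    intro S hS
    have hn : n ≤ S.card := by
      refine le_trans ?_ hS
      rw [Nat.succ_mul]; omega
    obtain ⟨A, hAS, hAc⟩ := Finset.exists_subset_card_eq hn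
    obtain ⟨L, hL1, hL2, hL3⟩ := ih (S \ A) (by
      rw [Finset.card_sdiff_of_subset hAS, hAc]
      rw [Nat.succ_mul] at hS; omega)
    refine ⟨Fin.cons A L, ?_, ?_, ?_⟩
    · intro i
      refine Fin.cases ?_ (fun j => ?_) i
      · simpa using hAS
      · simpa using (hL1 j).trans Finset.sdiff_subset
    · intro i
      refine Fin.cases ?_ (fun j => ?_) i
      · simpa using hAc
      · simpa using hL2 j
    · intro i j
      refine Fin.cases ?_ (fun i' => ?_) i
      · refine Fin.cases ?_ (fun j' => ?_) j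
        · intro h; exact absurd rfl h
        · intro _
          simp only [Fin.cons_zero, Fin.cons_succ]
          exact (Finset.disjoint_sdiff).mono_right (hL1 j')
      · refine Fin.cases ?_ (fun j' => ?_) j
        · intro _
          simp only [Fin.cons_zero, Fin.cons_succ]
          exact ((Finset.disjoint_sdiff).mono_right (hL1 i')).symm
        · intro h
          simp only [Fin.cons_succ]
          exact hL3 i' j' (fun h' => h (by rw [h']))

/-- **Leaves**: for every number `m` of leaves, every large level contains `m` pairwise disjoint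
sets of exactly `n` primes, where `(1/2 - ε) Q ≤ m * n * log Q ≤ (1/2 + ε) Q`, and every leaf has
mass `∑ log p` between `(1/2 - ε) Q / m` and `(1/2 + ε) Q / m`. -/
theorem leaves_bounds {ε : ℝ} (hε : 0 < ε) (m : ℕ) (hm : 0 < m) : ∃ N : ℕ, 2 ≤ N ∧ ∀ Q : ℕ,
    N ≤ Q → ∃ (n : ℕ) (L : Fin m → Finset ℕ),
    (∀ i, L i ⊆ lev Q) ∧ (∀ i, (L i).card = n) ∧ (∀ i j, i ≠ j → Disjoint (L i) (L j)) ∧
    0 < n ∧ (1 / 2 - ε) * Q ≤ m * n * Real.log Q ∧ m * n * Real.log Q ≤ (1 / 2 + ε) * Q ∧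
    (∀ i, (1 / 2 - ε) * Q ≤ m * ∑ p ∈ L i, Real.log p) ∧
    (∀ i, m * ∑ p ∈ L i, Real.log p ≤ (1 / 2 + ε) * Q) := by
  obtain ⟨ε', hε', hε'ε, hε'1⟩ : ∃ ε' : ℝ, 0 < ε' ∧ ε' ≤ ε / 4 ∧ ε' ≤ 1 / 8 :=
    ⟨min (ε / 4) (1 / 8), lt_min (by positivity) (by norm_num), min_le_left _ _, min_le_right _ _⟩
  obtain ⟨N1, hN1, h1⟩ := lev_bounds hε'
  have hlog : Tendsto (fun n : ℕ => Real.log (n : ℝ)) atTop atTop :=
    Real.tendsto_log_atTop.comp tendsto_natCast_atTop_atTop
  obtain ⟨N2, hN2⟩ := Filter.eventually_atTop.1 (hlog.eventually (eventually_ge_atTop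
    (max 1 (Real.log 2 / (ε / 4)))))
  -- `m * log Q ≤ ε' * Q`
  have hlit : Tendsto (fun n : ℕ => Real.log (n : ℝ) / (n : ℝ)) atTop (𝓝 0) := by
    have := (Real.isLittleO_log_id_atTop).tendsto_div_nhds_zero
    exact this.comp tendsto_natCast_atTop_atTop
  obtain ⟨N3, hN3⟩ := Filter.eventually_atTop.1 (hlit.eventually (gt_mem_nhds
    (show (0 : ℝ) < ε' / m by positivity)))
  refine ⟨max (max N1 N2) (max N3 2), (le_max_right _ _).trans (le_max_right _ _), fun Q hQ => ?_⟩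
  have hQ1 : N1 ≤ Q := ((le_max_left _ _).trans (le_max_left _ _)).trans hQ
  have hQ2 : N2 ≤ Q := ((le_max_right _ _).trans (le_max_left _ _)).trans hQ
  have hQ3 : N3 ≤ Q := ((le_max_left _ _).trans (le_max_right _ _)).trans hQ
  have hQ4 : 2 ≤ Q := ((le_max_right _ _).trans (le_max_right _ _)).trans hQ
  have hQ0 : (0 : ℝ) < Q := by exact_mod_cast (by omega : 0 < Q)
  have hm0 : (0 : ℝ) < m := by exact_mod_cast hm
  obtain ⟨-, h3, h4⟩ := h1 Q hQ1
  have h5 := hN2 Q hQ2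
  have h6 : 1 ≤ Real.log Q := (le_max_left _ _).trans h5
  have h7 : Real.log 2 / (ε / 4) ≤ Real.log Q := (le_max_right _ _).trans h5
  rw [div_le_iff₀ (by positivity)] at h7
  have h8 : m * Real.log Q ≤ ε' * Q := by
    have := (hN3 Q hQ3).le
    rw [div_le_div_iff₀ hQ0 hm0] at this
    linarith
  set n := (lev Q).card / m with hn
  have hmn : m * n ≤ (lev Q).card := Nat.mul_div_le _ _
  have hmn2 : (lev Q).card < m * n + m := by
    have h := Nat.div_add_mod (lev Q).card m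
    have h' := Nat.mod_lt (lev Q).card hm
    rw [← hn] at h
    omega
  have hmnr : ((m * n : ℕ) : ℝ) ≤ (lev Q).card := by exact_mod_cast hmn
  have hmn2r : ((lev Q).card : ℝ) ≤ ((m * n : ℕ) : ℝ) + m := by exact_mod_cast hmn2.le
  push_cast at hmnr hmn2r
  obtain ⟨L, hL1, hL2, hL3⟩ := exists_parts n m (lev Q) hmn
  have hA : (1 / 2 - 2 * ε') * Q ≤ m * n * Real.log Q := by
    have : (lev Q).card * Real.log Q ≤ ((m : ℝ) * n + m) * Real.log Q :=
      mul_le_mul_of_nonneg_right hmn2r (by linarith)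
    nlinarith
  have hB : m * n * Real.log Q ≤ (1 / 2 + ε') * Q := by
    have : (m : ℝ) * n * Real.log Q ≤ (lev Q).card * Real.log Q :=
      mul_le_mul_of_nonneg_right hmnr (by linarith)
    linarith
  have hnpos : 0 < n := by
    rcases Nat.eq_zero_or_pos n with h | h
    · exfalso
      rw [h] at hmn2
      have h9 : ((lev Q).card : ℝ) ≤ m := by
        have : (lev Q).card ≤ m := by omega
        exact_mod_cast this
      have h10 : (lev Q).card * Real.log Q ≤ m * Real.log Q :=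
        mul_le_mul_of_nonneg_right h9 (by linarith)
      nlinarith
    · exact h
  refine ⟨n, L, hL1, hL2, hL3, hnpos, by nlinarith, by nlinarith, fun i => ?_, fun i => ?_⟩
  · have h9 : (n : ℝ) * Real.log Q ≤ ∑ p ∈ L i, Real.log p := by
      rw [← hL2 i, ← nsmul_eq_mul]
      refine Finset.card_nsmul_le_sum _ _ _ fun p hp => ?_
      exact Real.log_le_log hQ0 (by exact_mod_cast (mem_lev.1 (hL1 i hp)).1.1.le)
    have h10 : (m : ℝ) * (n * Real.log Q) ≤ m * ∑ p ∈ L i, Real.log p :=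
      mul_le_mul_of_nonneg_left h9 hm0.le
    nlinarith
  · have h9 : ∑ p ∈ L i, Real.log p ≤ (n : ℝ) * (Real.log 2 + Real.log Q) := by
      rw [← hL2 i, ← nsmul_eq_mul]
      refine Finset.sum_le_card_nsmul _ _ _ fun p hp => ?_
      rw [← Real.log_mul (by norm_num) hQ0.ne']
      have hp1 := (mem_lev.1 (hL1 i hp))
      exact Real.log_le_log (by exact_mod_cast hp1.2.1.pos) (by exact_mod_cast hp1.1.2)
    have h10 : m * ∑ p ∈ L i, Real.log p ≤ (m : ℝ) * (n * (Real.log 2 + Real.log Q)) :=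
      mul_le_mul_of_nonneg_left h9 hm0.le
    have hl2 : 0 < Real.log 2 := Real.log_pos (by norm_num)
    have hc0 : (0 : ℝ) ≤ (m : ℝ) * n := by positivity
    have h11 : (m : ℝ) * n * Real.log 2 ≤ ε / 4 * (m * n * Real.log Q) := by
      calc (m : ℝ) * n * Real.log 2 ≤ (m : ℝ) * n * (Real.log Q * (ε / 4)) :=
            mul_le_mul_of_nonneg_left h7 hc0
        _ = _ := by ring
    have h12 : ε / 4 * (m * n * Real.log Q) ≤ ε / 4 * Q := by
      refine mul_le_mul_of_nonneg_left (hB.trans ?_) (by positivity)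
      nlinarith
    nlinarith

end Vale.Agent.P015.H895
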